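import Mathlib
import Vale.Agent.Lib.P162.Defs

/-!
# P162, pool job G: two of the `k` tracked cards evolve as the two-card chain
-/

namespace Vale.Agent.Lib.P162.H46

open Finset BigOperators Vale.Agent.Lib.P162

theorem pair_eq_iff {α : Type*} (a b : α) (w : Fin 2 → α) :
    (![a, b] = w) ↔ (a = w 0 ∧ b = w 1) := by
  constructor
  · rintro rfl
    exact ⟨rfl, rfl⟩
  · rintro ⟨h0, h1⟩
    funext i
    fin_cases i
    · exact h0
    · exact h1

/-- One step: summing the `k`-card step law over all targets with prescribed positions of the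
cards `j`, `j'` gives the two-card step law. -/
theorem step_lump (h k : ℕ) [NeZero h] (x : Fin k → ZMod (2 * h)) (j j' : Fin k)
    (v : Fin 2 → ZMod (2 * h)) :
    ∑ u ∈ univ.filter (fun u : Fin k → ZMod (2 * h) => u j = v 0 ∧ u j' = v 1),
        stepProb h k x u = stepProb h 2 ![x j, x j'] v := by
  unfold stepProb
  rw [← Finset.sum_div]
  congr 1
  have key : ∀ u : Fin k → ZMod (2 * h),
      ((univ.filter fun c : ZMod h → Bool => ∀ i, move h c (x i) = u i).card : ℝ)
        = ∑ c : ZMod h → Bool, if (fun i => move h c (x i)) = u then (1 : ℝ) else 0 := by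
    intro u
    rw [Finset.card_filter, Nat.cast_sum]
    refine Finset.sum_congr rfl fun c _ => ?_
    have hiff : (∀ i, move h c (x i) = u i) ↔ (fun i => move h c (x i)) = u := by
      constructor
      · intro hh
        funext i
        exact hh i
      · intro hh i
        exact congrFun hh i
    simp only [hiff, Nat.cast_ite, Nat.cast_one, Nat.cast_zero]
  rw [Finset.sum_congr rfl (fun u _ => key u), Finset.sum_comm]
  rw [Finset.card_filter, Nat.cast_sum]
  refine Finset.sum_congr rfl fun c _ => ?_
  rw [Finset.sum_ite_eq]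
  have hiff : (∀ i : Fin 2, move h c (![x j, x j'] i) = v i) ↔
      (move h c (x j) = v 0 ∧ move h c (x j') = v 1) := by
    rw [Fin.forall_fin_two]
    simp
  simp only [Finset.mem_filter, Finset.mem_univ, true_and, hiff, Nat.cast_ite, Nat.cast_one,
    Nat.cast_zero]

theorem lump_pair (h k : ℕ) [NeZero h] (x : Fin k → ZMod (2 * h)) (j j' : Fin k) (hjj : j ≠ j')
    (s : ℕ) (w : Fin 2 → ZMod (2 * h)) :
    ∑ y ∈ univ.filter (fun y : Fin k → ZMod (2 * h) => y j = w 0 ∧ y j' = w 1),
        (Kmat h k ^ s) x y
      = (Kmat h 2 ^ s) ![x j, x j'] w := by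
  have _hne := hjj
  induction s generalizing x with
  | zero =>
    simp only [pow_zero, Matrix.one_apply]
    rw [Finset.sum_ite_eq]
    simp only [Finset.mem_filter, Finset.mem_univ, true_and, pair_eq_iff]
  | succ s ih =>
    rw [pow_succ', pow_succ']
    simp only [Matrix.mul_apply]
    rw [Finset.sum_comm]
    have h1 : ∀ u : Fin k → ZMod (2 * h),
        ∑ y ∈ univ.filter (fun y : Fin k → ZMod (2 * h) => y j = w 0 ∧ y j' = w 1),
          Kmat h k x u * (Kmat h k ^ s) u y
          = Kmat h k x u * (Kmat h 2 ^ s) ![u j, u j'] w := by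
      intro u
      rw [← Finset.mul_sum, ih u]
    rw [Finset.sum_congr rfl (fun u _ => h1 u)]
    have h2 : ∀ v : Fin 2 → ZMod (2 * h),
        Kmat h 2 ![x j, x j'] v * (Kmat h 2 ^ s) v w
          = ∑ u ∈ univ.filter (fun u : Fin k → ZMod (2 * h) => ![u j, u j'] = v),
              Kmat h k x u * (Kmat h 2 ^ s) ![u j, u j'] w := by
      intro v
      have h3 : Kmat h 2 ![x j, x j'] v
          = ∑ u ∈ univ.filter (fun u : Fin k → ZMod (2 * h) => ![u j, u j'] = v),
              Kmat h k x u := by
        have h4 := step_lump h k x j j' v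
        have h5 : (univ.filter (fun u : Fin k → ZMod (2 * h) => ![u j, u j'] = v))
            = univ.filter (fun u : Fin k → ZMod (2 * h) => u j = v 0 ∧ u j' = v 1) := by
          refine Finset.filter_congr fun u _ => ?_
          exact pair_eq_iff (u j) (u j') v
        rw [h5]
        exact h4.symm
      rw [h3, Finset.sum_mul]
      refine Finset.sum_congr rfl fun u hu => ?_
      rw [(Finset.mem_filter.1 hu).2]
    rw [Finset.sum_congr rfl (fun v _ => h2 v)]
    exact (Finset.sum_fiberwise _ _ _).symm

end Vale.Agent.Lib.P162.H46
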